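import Vale.Agent.P180.R2.H589.Sch.ChrMain

/-!
P180: groups whose Schur multiplier has trivial `p`-part: inheritance.
-/

set_option linter.all false

namespace Vale.Agent.P180.R2.H589.Sp

open Subgroup
open Vale.Agent.P180.R2.H589.Sch
open scoped commutatorElement

/-- the `p`-part of the multiplier of `G` is trivial -/
def SM (p : ℕ) (G : Type) [Group G] : Prop :=
  ∀ (E : Type) [Group E] [Finite E] (f : E →* G), Function.Surjective f → f.ker ≤ center E →
    ∀ a, f a = 1 → a ∈ commutator E → Pel p a → a = 1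

section Transfer

variable {E : Type*} [Group E] [Finite E] {l : ℕ} [Fact l.Prime]

theorem mem_commutator_of_central' {H : Subgroup E}
    (hH : ¬ l ∣ H.index) {a : E} (hac : a ∈ center E) (haE : a ∈ commutator E) (haH : a ∈ H)
    (hal : Pel l a) : a ∈ ⁅H, H⁆ := by
  have hzc : ∀ g, g * a = a * g := mem_center_iff.mp hac
  have key : ∀ (k : ℕ) (g₀ : E), g₀⁻¹ * a ^ k * g₀ ∈ H → g₀⁻¹ * a ^ k * g₀ = a ^ k := by
    intro k g₀ _
    have h1 : g₀ * a ^ k = a ^ k * g₀ := (Commute.pow_right (hzc g₀) k)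
    rw [mul_assoc, ← h1, inv_mul_cancel_left]
  have h1 := MonoidHom.transfer_eq_pow (Abelianization.of (G := H)) a key
  have h2 : commutator E ≤ (MonoidHom.transfer (Abelianization.of (G := H))).ker := by
    rw [commutator_def, commutator_le]
    intro x _ y _
    rw [MonoidHom.mem_ker, commutatorElement_def, map_mul, map_mul, map_mul, map_inv, map_inv,
      mul_comm (MonoidHom.transfer _ x), mul_inv_cancel_right, mul_inv_cancel]
  have h3 : MonoidHom.transfer (Abelianization.of (G := H)) a = 1 := MonoidHom.mem_ker.mp (h2 haE)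
  have h4 : (Abelianization.of (⟨a, haH⟩ : H)) ^ H.index = 1 := by
    rw [← map_pow, ← h3, h1]
    congr 1
  obtain ⟨n, hn⟩ := hal
  have h5 : (Abelianization.of (⟨a, haH⟩ : H)) ^ l ^ n = 1 := by
    rw [← map_pow]
    have : (⟨a, haH⟩ : H) ^ l ^ n = 1 := Subtype.ext hn
    rw [this, map_one]
  have h6 := Nat.dvd_gcd (orderOf_dvd_of_pow_eq_one h5) (orderOf_dvd_of_pow_eq_one h4)
  have h7 : Nat.Coprime (l ^ n) H.index := by
    apply Nat.Coprime.pow_left
    rw [(Fact.out : l.Prime).coprime_iff_not_dvd]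
    exact hH
  rw [h7] at h6
  have h8 : Abelianization.of (⟨a, haH⟩ : H) = 1 :=
    orderOf_eq_one_iff.mp (Nat.dvd_one.mp h6)
  have h9 : (⟨a, haH⟩ : H) ∈ commutator H := by
    rw [← Abelianization.ker_of]
    exact h8
  rw [← Subgroup.map_subtype_commutator]
  exact ⟨⟨a, haH⟩, h9, rfl⟩

end Transfer

section SM

variable {p : ℕ} {G G' : Type} [Group G] [Group G']

theorem SM.of_index [Fact p.Prime] {H : Subgroup G} (hH : ¬ p ∣ H.index) (h : SM p H) :
    SM p G := by
  intro E _ _ f hf hk a ha haE hpa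
  have h1 : ¬ p ∣ (H.comap f).index := by rwa [index_comap_of_surjective H hf]
  have haH : a ∈ H.comap f := by
    rw [mem_comap, ha]
    exact Subgroup.one_mem _
  have h2 := mem_commutator_of_central' h1 (hk (MonoidHom.mem_ker.mpr ha)) haE haH hpa
  rw [← map_subtype_commutator] at h2
  obtain ⟨a', ha', haa⟩ := h2
  have h3 := h (H.comap f) (f.subgroupComap H) (fun x => by
      obtain ⟨y, hy⟩ := hf (x : G)
      exact ⟨⟨y, by rw [mem_comap, hy]; exact x.2⟩, Subtype.ext hy⟩) (fun x hx => by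
      rw [mem_center_iff]
      intro y
      have h4 : f (x : E) = 1 := congrArg Subtype.val (MonoidHom.mem_ker.mp hx)
      exact Subtype.ext (mem_center_iff.mp (hk (MonoidHom.mem_ker.mpr h4)) y)) a' (by
      apply Subtype.ext
      change f (a' : E) = 1
      have haa' : (a' : E) = a := haa
      rw [haa', ha]) ha' (by
      obtain ⟨n, hn⟩ := hpa
      refine ⟨n, Subtype.ext ?_⟩
      have haa' : (a' : E) = a := haa
      rw [Subgroup.coe_pow, haa', hn]
      rfl)
  rw [← haa, h3]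
  rfl

theorem SM.of_equiv (e : G ≃* G') (h : SM p G) : SM p G' := by
  intro E _ _ f hf hk a ha haE hpa
  refine h E (e.symm.toMonoidHom.comp f) (e.symm.surjective.comp hf) (fun x hx => hk ?_) a ?_ haE
    hpa
  · have h1 : e.symm (f x) = 1 := hx
    rw [MonoidHom.mem_ker]
    exact (MulEquiv.map_eq_one_iff e.symm).mp h1
  · change e.symm (f a) = 1
    rw [ha, map_one]

theorem SM.of_perfect (hG : commutator G = ⊤)
    (h : ∀ (E : Type) [Group E] [Finite E] (f : E →* G), Function.Surjective f →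
      f.ker ≤ center E → commutator E = ⊤ → ∀ a, f a = 1 → Pel p a → a = 1) : SM p G := by
  intro E _ _ f hf hk a ha haE hpa
  obtain ⟨h1, h2⟩ := perfect_commutator f hf hk hG
  have h3 := h (commutator E) (f.comp (commutator E).subtype) (fun x => by
      obtain ⟨y, rfl⟩ := hf x
      obtain ⟨c, hc, hcy⟩ := h1 y
      exact ⟨⟨c, hc⟩, hcy⟩) (fun x hx => by
      rw [mem_center_iff]
      intro y
      have h4 : f (x : E) = 1 := hx
      exact Subtype.ext (mem_center_iff.mp (hk (MonoidHom.mem_ker.mpr h4)) y)) h2 ⟨a, haE⟩ ha (by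
      obtain ⟨n, hn⟩ := hpa
      exact ⟨n, Subtype.ext hn⟩)
  exact congrArg Subtype.val h3

theorem SM.apply_perfect (h : SM p G) {E : Type} [Group E] [Finite E] (f : E →* G)
    (hf : Function.Surjective f) (hk : f.ker ≤ center E) (hE : commutator E = ⊤) {a : E}
    (ha : f a = 1) (hpa : Pel p a) : a = 1 :=
  h E f hf hk a ha (by rw [hE]; exact mem_top a) hpa

theorem SM.of_subsingleton [Subsingleton G] : SM p G := by
  intro E _ _ f hf hk a ha haE hpa
  have h2 : ∀ x : E, x ∈ center E := fun x => hk (MonoidHom.mem_ker.mpr (Subsingleton.elim _ _))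
  have h3 : commutator E = ⊥ := by
    rw [commutator_def, eq_bot_iff, commutator_le]
    intro x _ y _
    rw [mem_bot, commutatorElement_eq_one_iff_mul_comm]
    exact mem_center_iff.mp (h2 y) x
  rw [h3] at haE
  exact mem_bot.mp haE

theorem SM.of_not_dvd [Fact p.Prime] (hG : ¬ p ∣ Nat.card G) : SM p G :=
  SM.of_index (H := ⊥) (by rwa [index_bot]) SM.of_subsingleton

/-- **Splitting off an abelian normal subgroup.** -/
theorem SM.of_quot [Finite G] (φ : G →* G') (hφ : Function.Surjective φ) (h' : SM p G')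
    (H : ∀ (E : Type) [Group E] [Finite E] (f : E →* G), Function.Surjective f →
      f.ker ≤ center E → ∃ h : E, (∀ x y, φ (f x) = 1 → φ (f y) = 1 → x * y = y * x) ∧
        (∀ n, φ n = 1 → n * f h = f h * n → n = 1) ∧
        (∀ x y, φ (f x) = 1 → x * (h⁻¹ * y * h * y⁻¹) = (h⁻¹ * y * h * y⁻¹) * x)) : SM p G := by
  intro E _ _ f hf hk a ha haE hpa
  obtain ⟨h, H1, H2, H3⟩ := H E f hf hk
  have hN : ∀ x y, φ (f x) = 1 → φ (f (y * x * y⁻¹)) = 1 := by
    intro x y hx
    rw [map_mul, map_mul, map_mul, map_mul, hx, mul_one, map_inv, map_inv, mul_inv_cancel]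
  have hNc : ∀ x y, φ (f x) = 1 → φ (f ⁅x, y⁆) = 1 := by
    intro x y hx
    have h1 := hN x⁻¹ y (by rw [map_inv, map_inv, hx, inv_one])
    have h2 : ⁅x, y⁆ = x * (y * x⁻¹ * y⁻¹) := by rw [commutatorElement_def]; group
    rw [h2, map_mul, map_mul, hx, h1, one_mul]
  have hmul : ∀ x x', φ (f x) = 1 → φ (f x') = 1 → ⁅x, h⁆ * ⁅x', h⁆ = ⁅x * x', h⁆ := by
    intro x x' hx hx'
    have h1 := H1 x ⁅x', h⁆ hx (hNc x' h hx')
    have h2 := H1 ⁅x, h⁆ ⁅x', h⁆ (hNc x h hx) (hNc x' h hx')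
    calc ⁅x, h⁆ * ⁅x', h⁆ = ⁅x', h⁆ * x * (h * x⁻¹ * h⁻¹) := by
          rw [h2, commutatorElement_def x h]; group
      _ = x * ⁅x', h⁆ * (h * x⁻¹ * h⁻¹) := by rw [h1]
      _ = ⁅x * x', h⁆ := by
          rw [commutatorElement_def, commutatorElement_def]; group
  let D : Subgroup E :=
    { carrier := {d | ∃ x, φ (f x) = 1 ∧ d = ⁅x, h⁆}
      one_mem' := ⟨1, by rw [map_one, map_one], (commutatorElement_one_left h).symm⟩
      mul_mem' := by
        rintro _ _ ⟨x, hx, rfl⟩ ⟨x', hx', rfl⟩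
        exact ⟨x * x', by rw [map_mul, map_mul, hx, hx', one_mul], hmul x x' hx hx'⟩
      inv_mem' := by
        rintro _ ⟨x, hx, rfl⟩
        have hx' : φ (f x⁻¹) = 1 := by rw [map_inv, map_inv, hx, inv_one]
        refine ⟨x⁻¹, hx', ?_⟩
        have h1 := hmul x⁻¹ x hx' hx
        rw [inv_mul_cancel, commutatorElement_one_left] at h1
        exact (eq_inv_of_mul_eq_one_left h1).symm }
  have hDmem : ∀ d, d ∈ D ↔ ∃ x, φ (f x) = 1 ∧ d = ⁅x, h⁆ := fun d => Iff.rfl
  have hD : D.Normal := by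
    refine ⟨?_⟩
    rintro _ ⟨x, hx, rfl⟩ y
    refine ⟨y * x * y⁻¹, hN x y hx, ?_⟩
    have h1 := H3 (y * x * y⁻¹) y (hN x y hx)
    have h2 : y * ⁅x, h⁆ * y⁻¹ = (y * x * y⁻¹) * h * ((h⁻¹ * y * h * y⁻¹) * (y * x * y⁻¹)⁻¹) *
        (h⁻¹ * y * h * y⁻¹)⁻¹ * h⁻¹ := by
      rw [commutatorElement_def]; group
    have h3 : (h⁻¹ * y * h * y⁻¹) * (y * x * y⁻¹)⁻¹ =
        (y * x * y⁻¹)⁻¹ * (h⁻¹ * y * h * y⁻¹) :=
      (show Commute (y * x * y⁻¹) (h⁻¹ * y * h * y⁻¹) from h1).symm.inv_right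
    rw [h2, h3, commutatorElement_def]
    group
  have hDk : ∀ d ∈ D, f d = 1 → d = 1 := by
    rintro _ ⟨x, hx, rfl⟩ hd
    rw [map_commutatorElement, commutatorElement_eq_one_iff_mul_comm] at hd
    have h1 := H2 (f x) hx hd
    rw [commutatorElement_eq_one_iff_mul_comm]
    exact (mem_center_iff.mp (hk (MonoidHom.mem_ker.mpr h1)) h).symm
  have hDs : ∀ x, φ (f x) = 1 → ∃ d ∈ D, f d = f x := by
    -- `n ↦ [n, f h]` is bijective on the kernel
    have hcomm : ∀ n n', φ n = 1 → φ n' = 1 → n * n' = n' * n := by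
      intro n n' hn hn'
      obtain ⟨x, rfl⟩ := hf n
      obtain ⟨x', rfl⟩ := hf n'
      rw [← map_mul, ← map_mul, H1 x x' hn hn']
    let θ : φ.ker → φ.ker := fun n => ⟨⁅(n : G), f h⁆, by
      obtain ⟨x, hx⟩ := hf (n : G)
      have h1 := hNc x h (by rw [hx]; exact n.2)
      rw [map_commutatorElement, hx] at h1
      exact h1⟩
    have hθ : Function.Injective θ := by
      intro n n' hnn
      have h1 : ⁅(n : G), f h⁆ = ⁅(n' : G), f h⁆ := congrArg Subtype.val hnn
      obtain ⟨x, hx⟩ := hf (n : G)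
      obtain ⟨x', hx'⟩ := hf (n' : G)
      have hx1 : φ (f x) = 1 := by rw [hx]; exact n.2
      have hx1' : φ (f x') = 1 := by rw [hx']; exact n'.2
      have hxi : φ (f x'⁻¹) = 1 := by rw [map_inv, map_inv, hx1', inv_one]
      have h2 := congrArg f (hmul x x'⁻¹ hx1 hxi)
      have h3 := congrArg f (hmul x' x'⁻¹ hx1' hxi)
      rw [mul_inv_cancel, commutatorElement_one_left, map_one] at h3
      rw [map_mul, map_commutatorElement, hx, h1, ← hx', ← map_commutatorElement, ← map_mul, h3]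
        at h2
      rw [map_commutatorElement, eq_comm, commutatorElement_eq_one_iff_mul_comm] at h2
      have h4 := H2 (f (x * x'⁻¹)) (by rw [map_mul, map_mul, hx1, hxi, one_mul]) h2
      rw [map_mul, map_inv, hx, hx'] at h4
      exact Subtype.ext (mul_inv_eq_one.mp h4)
    have hθs : Function.Surjective θ := Finite.surjective_of_injective hθ
    intro x hx
    obtain ⟨n, hn⟩ := hθs ⟨f x, hx⟩
    obtain ⟨y, hy⟩ := hf (n : G)
    refine ⟨⁅y, h⁆, ⟨y, by rw [hy]; exact n.2, rfl⟩, ?_⟩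
    rw [map_commutatorElement, hy]
    exact congrArg Subtype.val hn
  -- the quotient
  have hDker : D ≤ (φ.comp f).ker := by
    rintro _ ⟨x, hx, rfl⟩
    exact hNc x h hx
  let F : E ⧸ D →* G' := QuotientGroup.lift D (φ.comp f) hDker
  have hF : ∀ x, F (QuotientGroup.mk' D x) = φ (f x) := fun x => rfl
  have h5 := h' (E ⧸ D) F (fun x => by
      obtain ⟨y, rfl⟩ := hφ x
      obtain ⟨z, rfl⟩ := hf y
      exact ⟨QuotientGroup.mk' D z, rfl⟩) (fun w hw => by
      obtain ⟨x, rfl⟩ := QuotientGroup.mk'_surjective D w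
      obtain ⟨d, hd, hdx⟩ := hDs x hw
      have h6 : QuotientGroup.mk' D x = QuotientGroup.mk' D (d⁻¹ * x) := by
        have h7 : QuotientGroup.mk' D d = 1 := (QuotientGroup.eq_one_iff _).mpr hd
        rw [map_mul, map_inv, h7, inv_one, one_mul]
      have h7 : d⁻¹ * x ∈ center E := hk (by
        rw [MonoidHom.mem_ker, map_mul, map_inv, hdx, inv_mul_cancel])
      rw [h6, mem_center_iff]
      intro v
      obtain ⟨v, rfl⟩ := QuotientGroup.mk'_surjective D v
      rw [← map_mul, ← map_mul, mem_center_iff.mp h7 v]) (QuotientGroup.mk' D a) (by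
      rw [hF, ha, map_one]) (by
      have h9 : (commutator E).map (QuotientGroup.mk' D) ≤ commutator (E ⧸ D) := by
        rw [_root_.commutator_def, map_commutator, _root_.commutator_def]
        exact commutator_mono le_top le_top
      exact h9 ⟨a, haE, rfl⟩) (hpa.map _)
  have h6 : a ∈ D := (QuotientGroup.eq_one_iff _).mp h5
  exact hDk a h6 ha

end SM

section Pair

variable {E G K : Type*} [Group E] [Group G] [Field K] {f : E →* G}

/-- Lifts of two commuting root subgroups commute if they are scaled simultaneously by all the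
scalars. -/
theorem comm_of_scalars [Finite K] (hK : 4 < Nat.card K) (hf : Function.Surjective f)
    (hk : f.ker ≤ center E) {ρ ρ' : K → G} (hρ : ∀ s t, ρ (s + t) = ρ s * ρ t)
    (hρ' : ∀ s t, ρ' (s + t) = ρ' s * ρ' t) (hcomm : ∀ s t, ρ s * ρ' t = ρ' t * ρ s)
    (hg : ∀ m : K, m ≠ 0 → ∃ g : G, (∀ s, g * ρ s * g⁻¹ = ρ (m * s)) ∧
      ∀ t, g * ρ' t * g⁻¹ = ρ' (m * t))
    {s t : K} {a b : E} (ha : f a = ρ s) (hb : f b = ρ' t) : a * b = b * a := by
  obtain ⟨c, h1, h2, h3⟩ := exists_pairing hf hk hρ hρ' hcomm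
  have hinv : ∀ m : K, m ≠ 0 → ∀ s t, c (m * s) (m * t) = c s t := by
    intro m hm s t
    obtain ⟨g, hg1, hg2⟩ := hg m hm
    obtain ⟨γ, rfl⟩ := hf g
    obtain ⟨x, hx⟩ := hf (ρ s)
    obtain ⟨y, hy⟩ := hf (ρ' t)
    apply Subtype.ext
    rw [h3 (m * s) (m * t) (γ * x * γ⁻¹) (γ * y * γ⁻¹)
      (by rw [map_mul, map_mul, map_inv, hx, hg1])
      (by rw [map_mul, map_mul, map_inv, hy, hg2]), h3 s t x y hx hy]
    apply comm_conj_of
    rw [← h3 s t x y hx hy]
    exact (c s t).2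
  obtain ⟨m, hm0, hm2, hm3⟩ := exists_mu (K := K) hK
  have hm1 : 1 + m ≠ 0 := by
    intro h
    apply hm2
    have : m = -1 := eq_neg_of_add_eq_zero_right h
    rw [this]
    ring
  have key : ∀ t u, c t ((m + m⁻¹ + 1) * u) = 1 := by
    intro t u
    have e1 := hinv (1 + m) hm1 t u
    rw [add_mul, add_mul, one_mul, one_mul, h1, h2, h2, hinv m hm0] at e1
    have e2 := hinv m⁻¹ (inv_ne_zero hm0) (m * t) u
    have e3 : m⁻¹ * (m * t) = t := by field_simp
    rw [e3] at e2
    rw [add_mul, add_mul, one_mul, h2, h2, e2]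
    -- c t u * c t (m u) * (c (m t) u * c t u) = c t u
    have e5 : c t u * (c t (m * u) * (c (m * t) u * c t u)) = c t u * 1 := by
      rw [mul_one, ← mul_assoc]
      exact e1
    have e6 := mul_left_cancel e5
    rw [← mul_assoc] at e6
    exact e6
  have hw : m + m⁻¹ + 1 ≠ 0 := by
    intro h
    apply hm3
    have h4 : m * (m + m⁻¹ + 1) = 0 := by rw [h, mul_zero]
    have h5 : m * m⁻¹ = 1 := mul_inv_cancel₀ hm0
    linear_combination (m - 1) * h4 - (m - 1) * h5
  have h4 : c s t = 1 := by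
    have := key s ((m + m⁻¹ + 1)⁻¹ * t)
    rwa [mul_inv_cancel_left₀ hw] at this
  have h5 := h3 s t a b ha hb
  rw [h4] at h5
  exact commutatorElement_eq_one_iff_mul_comm.mp h5.symm

end Pair

end Vale.Agent.P180.R2.H589.Sp
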