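import Vale.Agent.P180.R2.H589.Sp.Gen
import Vale.Agent.P180.R2.H589.Sp.Mul

/-!
P180: the Schur multiplier of a symplectic group over a finite field `K`, `|K| > 9`, has order prime
to the characteristic.
-/

set_option linter.all false

namespace Vale.Agent.P180.R2.H589.Sp

open Subgroup Module
open LinearMap (BilinForm)
open Vale.Agent.P180.R2.H589.Sch
open scoped commutatorElement

theorem finite_gl {K V : Type*} [Field K] [AddCommGroup V] [Module K V] [Finite V] :
    Finite (V ≃ₗ[K] V) :=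
  Finite.of_injective (fun e : V ≃ₗ[K] V => (e : V → V)) (fun e e' h => LinearEquiv.ext (congrFun h))

section Step

variable {K : Type} [Field K] {W : Type} [AddCommGroup W] [Module K W]
  {B : BilinForm K W} (hB : Sy B)

/-- the element of the line stabiliser -/
def qs (y : W) (c : K) : StS B := ⟨qq B y c, qq_St hB y c⟩

/-- Levi elements -/
def ls (m : SpG B) (l : Kˣ) : StS B := ⟨lv (m : W ≃ₗ[K] W) l, lv_St hB m.2 l⟩

theorem qs_mul (y y' : W) (c c' : K) :
    qs hB y c * qs hB y' c' = qs hB (y + y') (c + c' - B y' y) :=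
  Subtype.ext (qq_mul y y' c c')

theorem qs_inj {y y' : W} {c c' : K} (h : qs hB y c = qs hB y' c') : y = y' ∧ c = c' := by
  have h1 := congrArg (fun g : StS B => (g : (K × W × K) ≃ₗ[K] (K × W × K)) (0, 0, 1)) h
  change qq B y c (0, 0, 1) = qq B y' c' (0, 0, 1) at h1
  rw [qq_apply, qq_apply] at h1
  have h2 := congrArg Prod.fst h1
  have h3 := congrArg (fun u : K × W × K => u.2.1) h1
  simp only [map_zero, LinearMap.zero_apply, sub_zero, zero_add, mul_one, one_smul] at h2 h3
  exact ⟨h3, h2⟩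

theorem ls_qs (m : SpG B) (l : Kˣ) (y : W) (c : K) :
    ls hB m l * qs hB y c * (ls hB m l)⁻¹ =
      qs hB ((l : K) • (m : W ≃ₗ[K] W) y) ((l : K) ^ 2 * c) :=
  Subtype.ext (lv_qq hB m.2 l y c)

theorem bl_ls (m : SpG B) (l : Kˣ) : bl B (ls hB m l) = m := rfl

theorem lam_ls (m : SpG B) (l : Kˣ) : lam B (ls hB m l) = l := lam_lv hB m.2 l

theorem exists_qs {g : StS B} (h1 : bl B g = 1) (h2 : lam B g = 1) : ∃ y c, g = qs hB y c := by
  obtain ⟨y, c, h⟩ := exists_qq hB h1 h2
  exact ⟨y, c, Subtype.ext h⟩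

theorem bl_qs (y : W) (c : K) : bl B (qs hB y c) = 1 := bl_qq hB y c

theorem lam_qs (y : W) (c : K) : lam B (qs hB y c) = 1 := lam_qq hB y c

/-- the centre of the radical -/
def ZQ : Subgroup (StS B) where
  carrier := {g | ∃ c, g = qs hB 0 c}
  one_mem' := ⟨0, Subtype.ext qq_zero.symm⟩
  mul_mem' := by
    rintro _ _ ⟨c, rfl⟩ ⟨d, rfl⟩
    refine ⟨c + d, ?_⟩
    rw [qs_mul, add_zero, map_zero, sub_zero]
  inv_mem' := by
    rintro _ ⟨c, rfl⟩
    refine ⟨-c, Subtype.ext ?_⟩
    have := qq_inv hB 0 c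
    rw [neg_zero] at this
    exact this

theorem mem_ZQ {g : StS B} : g ∈ ZQ hB ↔ ∃ c, g = qs hB 0 c := Iff.rfl

theorem ZQ_normal : (ZQ hB).Normal := by
  refine ⟨?_⟩
  rintro _ ⟨c, rfl⟩ g
  obtain ⟨y, d, h⟩ := exists_decomp hB g
  have hg : g = ls hB (bl B g) (lam B g) * qs hB y d := Subtype.ext h
  have h1 : qs hB y d * qs hB 0 c = qs hB 0 c * qs hB y d := by
    rw [qs_mul, qs_mul, add_zero, zero_add, map_zero, map_zero, LinearMap.zero_apply]
    congr 1
    ring
  have h2 : g * qs hB 0 c * g⁻¹ =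
      ls hB (bl B g) (lam B g) * qs hB 0 c * (ls hB (bl B g) (lam B g))⁻¹ := by
    nth_rewrite 1 2 [hg]
    rw [mul_assoc (ls hB (bl B g) (lam B g)), h1]
    group
  rw [h2, ls_qs, map_zero, smul_zero]
  exact ⟨_, rfl⟩

end Step

section Main

variable {K : Type} [Field K] [Finite K] {p : ℕ} [Fact p.Prime] [CharP K p]

omit [Finite K] in
theorem exists_unit_sq (hK : ∃ a : K, a ≠ 0 ∧ a ^ 2 ≠ 1) : ∃ μ : Kˣ, (μ : K) ^ 2 ≠ 1 ∧
    (μ : K) ≠ 1 := by
  obtain ⟨a, h0, h2⟩ := hK
  refine ⟨Units.mk0 a h0, h2, fun h => h2 ?_⟩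
  rw [Units.val_mk0] at h
  rw [h, one_pow]

theorem dvd_cardK : p ∣ Nat.card K := by
  haveI := Fintype.ofFinite K
  rw [Nat.card_eq_fintype_card, ← CharP.cast_eq_zero_iff K p]
  exact Nat.cast_card_eq_zero K

theorem not_dvd_units : ¬ p ∣ Nat.card Kˣ := by
  intro h
  have h1 : Nat.card K = Nat.card Kˣ + 1 := Nat.card_eq_card_units_add_one K
  have h2 := dvd_cardK (K := K) (p := p)
  rw [h1] at h2
  have h3 := (Nat.dvd_add_right h).mp h2
  exact (Fact.out : p.Prime).one_lt.ne' (Nat.dvd_one.mp h3)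

variable {W : Type} [AddCommGroup W] [Module K W] [Module.Finite K W] {B : BilinForm K W}

theorem SM_prod (h : SM p (SpG B)) : SM p (Kˣ × SpG B) := by
  have h1 : SM p (MonoidHom.fst Kˣ (SpG B)).ker := by
    refine SM.of_equiv (G := SpG B) ?_ h
    exact
      { toFun := fun g => ⟨(1, g), rfl⟩
        invFun := fun w => (w : Kˣ × SpG B).2
        left_inv := fun g => rfl
        right_inv := fun w => Subtype.ext (Prod.ext (MonoidHom.mem_ker.mp w.2).symm rfl)
        map_mul' := fun g h => Subtype.ext (Prod.ext (one_mul 1).symm rfl) }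
  refine SM.of_index ?_ h1
  rw [index_ker]
  have h2 : (MonoidHom.fst Kˣ (SpG B)).range = ⊤ := by
    rw [MonoidHom.range_eq_top]
    intro x
    exact ⟨(x, 1), rfl⟩
  rw [h2, card_top]
  exact not_dvd_units

variable (hB : Sy B)

omit [Fact p.Prime] [CharP K p] in
include hB in
theorem zc (hK : 9 < Nat.card K) {E : Type*} [Group E] {f : E →* StS B}
    (hf : Function.Surjective f) (hk : f.ker ≤ center E) {x q : E} {c : K}
    (hx : f x = qs hB 0 c) {y : W} {d : K} (hq : f q = qs hB y d) : x * q = q * x := by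
  have h00 : ∀ {x q : E} {c d : K}, f x = qs hB 0 c → f q = qs hB 0 d → x * q = q * x := by
    intro x q c d hx hq
    refine comm_of_squares hK hf hk (ρ := fun s => qs hB 0 s) (fun s t => ?_) (fun m hm => ?_) hx hq
    · rw [qs_mul, add_zero, map_zero, sub_zero]
    · refine ⟨ls hB 1 (Units.mk0 m hm), fun s => ?_⟩
      rw [ls_qs, map_zero, smul_zero]
      rfl
  by_cases hy : y = 0
  · rw [hy] at hq
    exact h00 hx hq
  obtain ⟨a, h0, h2⟩ := exists_mu2 (K := K) (by omega)
  have ha1 : a ≠ 1 := by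
    rintro rfl
    exact h2 (one_pow 2)
  obtain ⟨m, hm, hmy⟩ := TG_trans hB (by omega) hy (smul_ne_zero h0 hy : a • y ≠ 0)
  obtain ⟨g, hg⟩ := hf (ls hB ⟨m, TG_le hB hm⟩ 1)
  obtain ⟨u, hu⟩ := hf (qs hB y 0)
  obtain ⟨v, hv⟩ := hf (qs hB 0 d)
  have hux : u * x = x * u := by
    refine comm_of_scale hf hk (ρ := fun t => qs hB (t • y) 0) (ρ' := fun s => qs hB 0 s)
      (fun s t => ?_) (fun s t => ?_) (fun s t => ?_) (g := g) (lam := a) ha1 (fun s => ?_)
      (fun t => ?_) (s := 1) (t := c) ?_ hx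
    · rw [qs_mul, map_smul, LinearMap.map_smul, LinearMap.smul_apply, hB.alt]
      congr 1
      · module
      · simp
    · rw [qs_mul, add_zero, map_zero, sub_zero]
    · rw [qs_mul, qs_mul]
      simp only [add_zero, zero_add, map_zero, LinearMap.zero_apply]
    · rw [hg, ls_qs, mul_zero, Units.val_one, one_smul]
      change qs hB (m (s • y)) 0 = _
      rw [map_smul, hmy, smul_smul, mul_comm]
    · rw [hg, ls_qs, map_zero, smul_zero, Units.val_one, one_pow, one_mul]
    · rw [hu, one_smul]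
  have hvx : x * v = v * x := h00 hx hv
  have hk1 : (u * v)⁻¹ * q ∈ center E := by
    apply hk
    rw [MonoidHom.mem_ker, map_mul, map_inv, map_mul, hu, hv, hq, qs_mul, add_zero, map_zero,
      LinearMap.zero_apply, zero_add, sub_zero, inv_mul_cancel]
  have hk2 := mem_center_iff.mp hk1 x
  have h3 : q = u * v * ((u * v)⁻¹ * q) := by group
  rw [h3]
  calc x * (u * v * ((u * v)⁻¹ * q)) = (x * u) * v * ((u * v)⁻¹ * q) := by group
    _ = u * (x * v) * ((u * v)⁻¹ * q) := by rw [← hux]; group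
    _ = u * v * (x * ((u * v)⁻¹ * q)) := by rw [hvx]; group
    _ = u * v * ((u * v)⁻¹ * q) * x := by rw [hk2]; group

include hB

theorem SM_StS (hK : 9 < Nat.card K) (ih : SM p (SpG B)) : SM p (StS B) := by
  haveI : Finite W := Module.finite_of_finite K
  haveI : Finite ((K × W × K) ≃ₗ[K] (K × W × K)) := finite_gl
  haveI := ZQ_normal hB
  obtain ⟨μ, hμ2, hμ1⟩ := exists_unit_sq (exists_mu2 (K := K) (by omega))
  have hcl : ∀ (y : W) (c c' : K), QuotientGroup.mk' (ZQ hB) (qs hB y c) =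
      QuotientGroup.mk' (ZQ hB) (qs hB y c') := by
    intro y c c'
    have h1 : qs hB y c = qs hB y c' * qs hB 0 (c - c') := by
      rw [qs_mul, add_zero, map_zero, LinearMap.zero_apply]
      congr 1
      ring
    have h2 : QuotientGroup.mk' (ZQ hB) (qs hB 0 (c - c')) = 1 :=
      (QuotientGroup.eq_one_iff _).mpr ⟨_, rfl⟩
    rw [h1, map_mul, h2, mul_one]
  -- second step
  have hstep2 : SM p (StS B ⧸ ZQ hB) := by
    let φ0 : StS B →* Kˣ × SpG B := (lam B).prod (bl B)
    have hφ0 : ZQ hB ≤ φ0.ker := by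
      rintro _ ⟨c, rfl⟩
      exact Prod.ext (lam_qs hB 0 c) (bl_qs hB 0 c)
    let φ : StS B ⧸ ZQ hB →* Kˣ × SpG B := QuotientGroup.lift _ φ0 hφ0
    have hφ : ∀ g, φ (QuotientGroup.mk' (ZQ hB) g) = (lam B g, bl B g) := fun g => rfl
    have hker : ∀ n, φ n = 1 → ∃ y, n = QuotientGroup.mk' (ZQ hB) (qs hB y 0) := by
      intro n hn
      obtain ⟨g, rfl⟩ := QuotientGroup.mk'_surjective _ n
      rw [hφ] at hn
      obtain ⟨y, c, rfl⟩ := exists_qs hB (congrArg Prod.snd hn) (congrArg Prod.fst hn)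
      exact ⟨y, hcl y c 0⟩
    refine SM.of_quot φ ?_ (SM_prod ih) ?_
    · rintro ⟨l, m⟩
      exact ⟨QuotientGroup.mk' (ZQ hB) (ls hB m l), by rw [hφ, bl_ls, lam_ls]⟩
    · intro E _ _ f hf hk
      obtain ⟨h, hh⟩ := hf (QuotientGroup.mk' (ZQ hB) (ls hB 1 μ))
      have H1 : ∀ x y, φ (f x) = 1 → φ (f y) = 1 → x * y = y * x := by
        intro x y hx hy
        obtain ⟨a, ha⟩ := hker _ hx
        obtain ⟨b, hb⟩ := hker _ hy
        refine comm_of_scalars (K := K) (by omega) hf hk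
          (ρ := fun s => QuotientGroup.mk' (ZQ hB) (qs hB (s • a) 0))
          (ρ' := fun s => QuotientGroup.mk' (ZQ hB) (qs hB (s • b) 0)) (fun s t => ?_)
          (fun s t => ?_) (fun s t => ?_) (fun m hm => ?_) (s := 1) (t := 1) ?_ ?_
        · rw [← map_mul, qs_mul, add_smul]
          exact hcl _ _ _
        · rw [← map_mul, qs_mul, add_smul]
          exact hcl _ _ _
        · rw [← map_mul, ← map_mul, qs_mul, qs_mul, add_comm (t • b)]
          exact hcl _ _ _
        · refine ⟨QuotientGroup.mk' (ZQ hB) (ls hB 1 (Units.mk0 m hm)), fun s => ?_, fun s => ?_⟩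
          · rw [← map_inv, ← map_mul, ← map_mul, ls_qs, mul_zero]
            change QuotientGroup.mk' (ZQ hB) (qs hB (m • (s • a)) 0) = _
            rw [smul_smul]
          · rw [← map_inv, ← map_mul, ← map_mul, ls_qs, mul_zero]
            change QuotientGroup.mk' (ZQ hB) (qs hB (m • (s • b)) 0) = _
            rw [smul_smul]
        · rw [one_smul]; exact ha
        · rw [one_smul]; exact hb
      refine ⟨h, H1, ?_, ?_⟩
      · intro n hn hnh
        obtain ⟨y, rfl⟩ := hker n hn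
        rw [hh, ← map_mul, ← map_mul, eq_comm] at hnh
        have h1 : QuotientGroup.mk' (ZQ hB) ((qs hB y 0)⁻¹ * (ls hB 1 μ * qs hB y 0 *
            (ls hB 1 μ)⁻¹)) = 1 := by
          rw [map_mul, map_mul, hnh, map_mul, map_inv, map_inv, mul_inv_cancel_right,
            inv_mul_cancel]
        have h2 : (qs hB y 0)⁻¹ = qs hB (-y) 0 := Subtype.ext (by
          have := qq_inv hB y 0
          rwa [neg_zero] at this)
        rw [ls_qs, h2, qs_mul] at h1
        obtain ⟨c, hc⟩ := (QuotientGroup.eq_one_iff _).mp h1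
        have h3 := (qs_inj hB hc).1
        have h4 : ((μ : K) - 1) • y = 0 := by
          have h5 : (-y + (μ : K) • y : W) = 0 := h3
          rw [sub_smul, one_smul, sub_eq_add_neg, add_comm]
          exact h5
        have h5 : y = 0 := (smul_eq_zero.mp h4).resolve_left (sub_ne_zero.mpr hμ1)
        rw [h5]
        exact (QuotientGroup.eq_one_iff _).mpr ⟨0, rfl⟩
      · intro x y hx
        refine H1 x _ hx ?_
        rw [map_mul, map_mul, map_mul, map_mul, map_mul, map_mul, map_inv, map_inv, map_inv,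
          map_inv, hh, hφ, bl_ls, lam_ls]
        refine Prod.ext ?_ ?_
        · change μ⁻¹ * (φ (f y)).1 * μ * (φ (f y)).1⁻¹ = 1
          rw [mul_comm μ⁻¹, inv_mul_cancel_right, mul_inv_cancel]
        · change 1⁻¹ * (φ (f y)).2 * 1 * (φ (f y)).2⁻¹ = 1
          rw [inv_one, one_mul, mul_one, mul_inv_cancel]
  refine SM.of_quot (QuotientGroup.mk' (ZQ hB)) (QuotientGroup.mk'_surjective _) hstep2 ?_
  intro E _ _ f hf hk
  obtain ⟨h, hh⟩ := hf (ls hB 1 μ)
  have hmem : ∀ g, QuotientGroup.mk' (ZQ hB) g = 1 → ∃ c, g = qs hB 0 c :=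
    fun g hg => (QuotientGroup.eq_one_iff g).mp hg
  refine ⟨h, ?_, ?_, ?_⟩
  · intro x y hx hy
    obtain ⟨c, hc⟩ := hmem _ hx
    obtain ⟨d, hd⟩ := hmem _ hy
    exact zc hB hK hf hk hc hd
  · intro n hn hnh
    obtain ⟨c, rfl⟩ := hmem _ hn
    rw [hh, eq_comm, ← mul_inv_eq_iff_eq_mul, ls_qs, map_zero, smul_zero] at hnh
    have h1 := (qs_inj hB hnh).2
    have h2 : ((μ : K) ^ 2 - 1) * c = 0 := by linear_combination h1
    have h3 : c = 0 := (mul_eq_zero.mp h2).resolve_left (sub_ne_zero.mpr hμ2)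
    rw [h3]
    exact Subtype.ext qq_zero
  · intro x y hx
    obtain ⟨c, hc⟩ := hmem _ hx
    obtain ⟨y', d, hd⟩ := exists_qs hB (g := f (h⁻¹ * y * h * y⁻¹)) (by
      rw [map_mul, map_mul, map_mul, map_mul, map_mul, map_mul, map_inv, map_inv, map_inv,
        map_inv, hh, bl_ls, inv_one, one_mul, mul_one, mul_inv_cancel]) (by
      rw [map_mul, map_mul, map_mul, map_mul, map_mul, map_mul, map_inv, map_inv, map_inv,
        map_inv, hh, lam_ls, mul_comm μ⁻¹, inv_mul_cancel_right, mul_inv_cancel])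
    exact zc hB hK hf hk hc hd

theorem not_dvd_index_StS (hK : 2 < Nat.card K) :
    ¬ p ∣ ((StS B).subgroupOf (SpG (hyp B))).index := by
  haveI : Finite W := Module.finite_of_finite K
  haveI : Finite ((K × W × K) ≃ₗ[K] (K × W × K)) := finite_gl
  let G := SpG (hyp B)
  let S : Sylow p G := default
  let V := K × W × K
  letI act0 : MulAction S V :=
    MulAction.compHom V (((SpG (hyp B)).subtype).comp (S : Subgroup G).subtype)
  have hsm : ∀ (s : S) (v : V), s • v = ((s : G) : V ≃ₗ[K] V) v := fun s v => rfl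
  have hcard : p ∣ Nat.card V := by
    rw [Nat.card_prod]
    exact Dvd.dvd.mul_right dvd_cardK _
  have h0 : (0 : V) ∈ MulAction.fixedPoints S V := by
    rw [MulAction.mem_fixedPoints]
    intro s
    exact (hsm s 0).trans (map_zero _)
  obtain ⟨v, hv, hv0⟩ :=
    S.isPGroup'.exists_fixed_point_of_prime_dvd_card_of_fixed_point V hcard h0
  rw [MulAction.mem_fixedPoints] at hv
  obtain ⟨g, hg, hgv⟩ := TG_trans (hyp_sy hB) hK hv0.symm (oo_ne (K := K) (W := W))
  have hle : (((⟨g, TG_le _ hg⟩ : G) • S : Sylow p G) : Subgroup G) ≤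
      (StS B).subgroupOf (SpG (hyp B)) := by
    intro x hx
    rw [Sylow.coe_subgroup_smul, mem_pointwise_smul_iff_inv_smul_mem, ← map_inv,
      MulAut.smul_def, MulAut.conj_apply, inv_inv] at hx
    have h1 := hv ⟨_, hx⟩
    have h2 : (g⁻¹ * (x : V ≃ₗ[K] V) * g) v = v := h1
    rw [mem_subgroupOf]
    refine ⟨x.2, 1, ?_⟩
    rw [one_smul, ← hgv]
    nth_rewrite 2 [← h2]
    rw [← LinearEquiv.mul_apply, ← LinearEquiv.mul_apply]
    congr 1
    group
  intro hd
  exact Sylow.not_dvd_index ((⟨g, TG_le _ hg⟩ : G) • S) (hd.trans (index_dvd_of_le hle))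

omit hB in
/-- **The multiplier of a symplectic group.** -/
theorem SM_SpG (hK : 9 < Nat.card K) {V : Type} [AddCommGroup V] [Module K V] [Module.Finite K V]
    {B : BilinForm K V} (hB : Sy B) : SM p (SpG B) := by
  refine sp_ind (K := K) (fun V _ _ B => SM p (SpG B)) ?_ ?_ ?_ V B hB
  · intro V _ _ B hV
    haveI : Subsingleton (SpG B) :=
      ⟨fun g h => Subtype.ext (LinearEquiv.ext fun x => Subsingleton.elim _ _)⟩
    exact SM.of_subsingleton
  · intro W _ _ _ B hB ih
    refine SM.of_index (not_dvd_index_StS hB (by omega)) ?_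
    refine SM.of_equiv (Subgroup.subgroupOfEquivOfLe ?_).symm (SM_StS hB hK ih)
    exact fun g hg => hg.1
  · intro V V' _ _ _ _ B B' e he ih
    refine SM.of_equiv ?_ ih
    exact
      { toFun := fun g => ⟨cj e g, (cj_mem he).mpr g.2⟩
        invFun := fun g => ⟨(cj e).symm g, by
          rw [← cj_mem he, MulEquiv.apply_symm_apply]; exact g.2⟩
        left_inv := fun g => Subtype.ext ((cj e).symm_apply_apply g)
        right_inv := fun g => Subtype.ext ((cj e).apply_symm_apply g)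
        map_mul' := fun g h => Subtype.ext (map_mul (cj e) (g : V ≃ₗ[K] V) (h : V ≃ₗ[K] V)) }

end Main

end Vale.Agent.P180.R2.H589.Sp
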