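import Vale.Agent.P180.R2.H589.Sch.Tv
import Mathlib.LinearAlgebra.BilinearForm.Basic
import Mathlib.LinearAlgebra.Dual.Lemmas

/-!
P180: symplectic groups: transvections, transitivity, hyperbolic extensions.
-/

set_option linter.all false

namespace Vale.Agent.P180.R2.H589.Sp

open Subgroup Module
open LinearMap (BilinForm)
open Vale.Agent.P180.R2.H589.Sch

section Basic

variable {K V : Type*} [Field K] [AddCommGroup V] [Module K V]

/-- the group of the isometries -/
def SpG (B : BilinForm K V) : Subgroup (V ≃ₗ[K] V) where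
  carrier := {g | ∀ x y, B (g x) (g y) = B x y}
  one_mem' := fun x y => rfl
  mul_mem' := by
    intro g h hg hh x y
    rw [LinearEquiv.mul_apply, LinearEquiv.mul_apply, hg, hh]
  inv_mem' := by
    intro g hg x y
    have h1 : ∀ z, g (g⁻¹ z) = z := g.apply_symm_apply
    rw [← hg, h1, h1]

theorem mem_SpG {B : BilinForm K V} {g : V ≃ₗ[K] V} :
    g ∈ SpG B ↔ ∀ x y, B (g x) (g y) = B x y := Iff.rfl

/-- nondegenerate alternating forms -/
structure Sy (B : BilinForm K V) : Prop where
  alt : ∀ x, B x x = 0
  nd : ∀ x, (∀ y, B x y = 0) → x = 0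

variable {B : BilinForm K V} (hB : Sy B)

include hB

theorem Sy.neg (x y : V) : B y x = - B x y := by
  have h := hB.alt (x + y)
  rw [map_add, map_add, LinearMap.add_apply, LinearMap.add_apply, hB.alt, hB.alt, zero_add,
    add_zero] at h
  exact eq_neg_of_add_eq_zero_left h

theorem Sy.swap_ne {x y : V} (h : B x y ≠ 0) : B y x ≠ 0 := by
  rw [hB.neg]
  exact neg_ne_zero.mpr h

theorem Sy.exists_ne {x : V} (hx : x ≠ 0) : ∃ y, B x y ≠ 0 := by
  by_contra h
  push Not at h
  exact hx (hB.nd x h)

theorem Sy.exists_one {x : V} (hx : x ≠ 0) : ∃ y, B x y = 1 := by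
  obtain ⟨y, hy⟩ := hB.exists_ne hx
  refine ⟨(B x y)⁻¹ • y, ?_⟩
  rw [map_smul, smul_eq_mul, inv_mul_cancel₀ hy]

theorem Sy.exists_dual [Module.Finite K V] (φ : Dual K V) : ∃ y, ∀ x, φ x = B x y := by
  have hinj : Function.Injective (B.flip : V →ₗ[K] Dual K V) := by
    rw [injective_iff_map_eq_zero]
    intro y hy
    apply hB.nd
    intro x
    rw [hB.neg, neg_eq_zero]
    exact LinearMap.congr_fun hy x
  have hsurj : Function.Surjective (B.flip : V →ₗ[K] Dual K V) :=
    (LinearMap.injective_iff_surjective_of_finrank_eq_finrank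
      (Subspace.dual_finrank_eq (K := K) (V := V)).symm).mp hinj
  obtain ⟨y, hy⟩ := hsurj φ
  exact ⟨y, fun x => (LinearMap.congr_fun hy x).symm⟩

theorem Sy.flip_self (a : V) (c : K) : (c • LinearMap.flip B a : Dual K V) a = 0 := by
  rw [LinearMap.smul_apply, LinearMap.flip_apply, hB.alt, smul_zero]

/-- symplectic transvections -/
def tS (a : V) (c : K) : V ≃ₗ[K] V := LinearEquiv.transvection (hB.flip_self a c)

theorem tS_apply (a : V) (c : K) (x : V) : tS hB a c x = x + (c * B x a) • a := rfl

theorem tS_isTv (a : V) (c : K) : IsTv (tS hB a c) (c • LinearMap.flip B a) a :=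
  ⟨hB.flip_self a c, fun x => rfl⟩

theorem tS_mem (a : V) (c : K) : tS hB a c ∈ SpG B := by
  intro x y
  rw [tS_apply, tS_apply]
  simp only [map_add, LinearMap.add_apply, map_smul, LinearMap.smul_apply, hB.alt, smul_eq_mul]
  rw [hB.neg y a]
  ring

theorem tS_conj {g : V ≃ₗ[K] V} (hg : g ∈ SpG B) (a : V) (c : K) :
    g * tS hB a c * g⁻¹ = tS hB (g a) c := by
  rw [mul_inv_eq_iff_eq_mul]
  apply LinearEquiv.ext
  intro x
  rw [LinearEquiv.mul_apply, LinearEquiv.mul_apply, tS_apply, tS_apply, mem_SpG.mp hg, map_add,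
    map_smul]

theorem tS_smul (a : V) (c l : K) : tS hB (l • a) c = tS hB a (l ^ 2 * c) := by
  apply LinearEquiv.ext
  intro x
  rw [tS_apply, tS_apply, map_smul, smul_smul, smul_eq_mul]
  congr 2
  ring

theorem tS_add (a : V) (c d : K) : tS hB a c * tS hB a d = tS hB a (c + d) := by
  apply LinearEquiv.ext
  intro x
  rw [LinearEquiv.mul_apply, tS_apply, tS_apply, tS_apply, map_add, map_smul,
    LinearMap.add_apply, LinearMap.smul_apply, hB.alt, smul_zero, add_zero]
  module

theorem tS_zero (a : V) : tS hB a 0 = 1 := by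
  apply LinearEquiv.ext
  intro x
  rw [tS_apply, zero_mul, zero_smul, add_zero]
  rfl

theorem tS_inv (a : V) (c : K) : (tS hB a c)⁻¹ = tS hB a (-c) := by
  symm
  apply eq_inv_of_mul_eq_one_left
  rw [tS_add, neg_add_cancel, tS_zero]

theorem tS_pel {p : ℕ} [CharP K p] (a : V) (c : K) : Pel p (tS hB a c) :=
  ⟨1, by rw [pow_one]; exact (tS_isTv hB a c).pow_char⟩

/-- the transvection which maps `v` to `w` -/
theorem tS_move {v w : V} (h : B v w ≠ 0) : tS hB (w - v) (B v w)⁻¹ v = w := by
  rw [tS_apply, map_sub, hB.alt, sub_zero, inv_mul_cancel₀ h, one_smul, add_sub_cancel]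

/-- the subgroup generated by the transvections -/
def TG : Subgroup (V ≃ₗ[K] V) := closure {e | ∃ a c, e = tS hB a c}

theorem tS_mem_TG (a : V) (c : K) : tS hB a c ∈ TG hB := subset_closure ⟨a, c, rfl⟩

theorem TG_le : TG hB ≤ SpG B := by
  rw [TG, closure_le]
  rintro _ ⟨a, c, rfl⟩
  exact tS_mem hB a c

end Basic

section Avoid

variable {K V : Type*} [Field K] [Finite K] [AddCommGroup V] [Module K V]

/-- There is a vector outside few hyperplanes. -/
theorem exists_avoid (s : Finset (Dual K V)) (hs : s.card < Nat.card K) (h0 : ∀ φ ∈ s, φ ≠ 0) :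
    ∃ x : V, ∀ φ ∈ s, φ x ≠ 0 := by
  classical
  haveI := Fintype.ofFinite K
  induction s using Finset.induction_on with
  | empty => exact ⟨0, fun φ h => absurd h (Finset.notMem_empty φ)⟩
  | insert ψ s hψ ih =>
    rw [Finset.card_insert_of_notMem hψ] at hs
    obtain ⟨x, hx⟩ := ih (by omega) (fun φ h => h0 φ (Finset.mem_insert_of_mem h))
    by_cases hψx : ψ x ≠ 0
    · refine ⟨x, fun φ h => ?_⟩
      rcases Finset.mem_insert.mp h with rfl | h
      · exact hψx
      · exact hx φ h
    · push Not at hψx
      obtain ⟨y, hy⟩ : ∃ y, ψ y ≠ 0 := by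
        by_contra hcon
        push Not at hcon
        exact h0 ψ (Finset.mem_insert_self _ _) (LinearMap.ext hcon)
      -- a good scalar
      let bad : Finset K := insert 0 (s.image fun φ => - φ x / φ y)
      have hbad : bad.card < (Finset.univ : Finset K).card := by
        rw [Finset.card_univ, ← Nat.card_eq_fintype_card]
        refine lt_of_le_of_lt (Finset.card_insert_le _ _) ?_
        exact lt_of_le_of_lt (Nat.add_le_add_right Finset.card_image_le 1) hs
      obtain ⟨t, -, ht⟩ := Finset.exists_mem_notMem_of_card_lt_card hbad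
      have ht0 : t ≠ 0 := fun h => ht (by rw [h]; exact Finset.mem_insert_self _ _)
      refine ⟨x + t • y, fun φ h => ?_⟩
      rw [map_add, map_smul, smul_eq_mul]
      rcases Finset.mem_insert.mp h with rfl | h
      · rw [hψx, zero_add]
        exact mul_ne_zero ht0 hy
      · intro h1
        by_cases hφy : φ y = 0
        · rw [hφy, mul_zero, add_zero] at h1
          exact hx φ h h1
        · apply ht
          refine Finset.mem_insert_of_mem (Finset.mem_image.mpr ⟨φ, h, ?_⟩)
          rw [div_eq_iff hφy]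
          linear_combination -h1

/-- The same for finite families. -/
theorem exists_avoid' {n : ℕ} (hn : n < Nat.card K) (φ : Fin n → Dual K V) (h0 : ∀ i, φ i ≠ 0) :
    ∃ x : V, ∀ i, φ i x ≠ 0 := by
  classical
  obtain ⟨x, hx⟩ := exists_avoid (Finset.univ.image φ)
    (lt_of_le_of_lt (Finset.card_image_le.trans (by rw [Finset.card_fin])) hn) (by
      intro ψ hψ
      obtain ⟨i, -, rfl⟩ := Finset.mem_image.mp hψ
      exact h0 i)
  exact ⟨x, fun i => hx _ (Finset.mem_image.mpr ⟨i, Finset.mem_univ i, rfl⟩)⟩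

variable {B : BilinForm K V} (hB : Sy B)

include hB

theorem Sy.left_ne {v : V} (hv : v ≠ 0) : (B v : Dual K V) ≠ 0 := by
  intro h
  exact hv (hB.nd v fun y => by rw [h]; rfl)

/-- Transitivity on nonzero vectors. -/
theorem TG_trans (hK : 2 < Nat.card K) {v w : V} (hv : v ≠ 0) (hw : w ≠ 0) :
    ∃ g ∈ TG hB, g v = w := by
  obtain ⟨y, hy⟩ := exists_avoid' (n := 2) hK ![B v, B w] (by
    intro i
    fin_cases i
    · exact hB.left_ne hv
    · exact hB.left_ne hw)
  have h1 : B v y ≠ 0 := hy 0
  have h2 : B y w ≠ 0 := hB.swap_ne (hy 1)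
  refine ⟨_, Subgroup.mul_mem _ (tS_mem_TG hB (w - y) (B y w)⁻¹)
    (tS_mem_TG hB (y - v) (B v y)⁻¹), ?_⟩
  rw [LinearEquiv.mul_apply, tS_move hB h1, tS_move hB h2]

end Avoid

section Hyp

variable {K W : Type*} [Field K] [AddCommGroup W] [Module K W]

/-- the hyperbolic extension of a form -/
def hyp (B : BilinForm K W) : BilinForm K (K × W × K) :=
  LinearMap.mk₂ K (fun u v => u.1 * v.2.2 - u.2.2 * v.1 + B u.2.1 v.2.1)
    (by
      intro u u' v
      simp only [Prod.fst_add, Prod.snd_add, map_add, LinearMap.add_apply]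
      ring)
    (by
      intro c u v
      simp only [Prod.smul_fst, Prod.smul_snd, map_smul, LinearMap.smul_apply, smul_eq_mul]
      ring)
    (by
      intro u v v'
      simp only [Prod.fst_add, Prod.snd_add, map_add, LinearMap.add_apply]
      ring)
    (by
      intro c u v
      simp only [Prod.smul_fst, Prod.smul_snd, map_smul, LinearMap.smul_apply, smul_eq_mul]
      ring)

theorem hyp_apply (B : BilinForm K W) (u v : K × W × K) :
    hyp B u v = u.1 * v.2.2 - u.2.2 * v.1 + B u.2.1 v.2.1 := rfl

variable {B : BilinForm K W} (hB : Sy B)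

include hB in
theorem hyp_sy : Sy (hyp B) := by
  refine ⟨fun x => ?_, fun x hx => ?_⟩
  · rw [hyp_apply, hB.alt]
    ring
  · have h1 : x.1 = 0 := by
      have := hx (0, 0, 1)
      rw [hyp_apply] at this
      simpa using this
    have h2 : x.2.2 = 0 := by
      have := hx (1, 0, 0)
      rw [hyp_apply] at this
      simpa using this
    have h3 : x.2.1 = 0 := by
      apply hB.nd
      intro y
      have := hx (0, y, 0)
      rw [hyp_apply] at this
      simpa using this
    exact Prod.ext h1 (Prod.ext h3 h2)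

end Hyp

section Split

variable {K V : Type*} [Field K] [AddCommGroup V] [Module K V]

/-- the orthogonal space of a hyperbolic pair -/
def WW (B : BilinForm K V) (o o' : V) : Submodule K V where
  carrier := {x | B o x = 0 ∧ B o' x = 0}
  zero_mem' := ⟨map_zero _, map_zero _⟩
  add_mem' := by
    rintro x y ⟨h1, h2⟩ ⟨h3, h4⟩
    exact ⟨by rw [map_add, h1, h3, add_zero], by rw [map_add, h2, h4, add_zero]⟩
  smul_mem' := by
    rintro c x ⟨h1, h2⟩
    exact ⟨by rw [map_smul, h1, smul_zero], by rw [map_smul, h2, smul_zero]⟩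

/-- the restricted form -/
def BW (B : BilinForm K V) (o o' : V) : BilinForm K (WW B o o') :=
  LinearMap.mk₂ K (fun x y => B x y)
    (by intro x x' y; rw [Submodule.coe_add, map_add, LinearMap.add_apply])
    (by intro c x y; rw [Submodule.coe_smul, map_smul, LinearMap.smul_apply])
    (by intro x y y'; rw [Submodule.coe_add, map_add])
    (by intro c x y; rw [Submodule.coe_smul, map_smul])

theorem BW_apply (B : BilinForm K V) (o o' : V) (x y : WW B o o') : BW B o o' x y = B x y := rfl

variable {B : BilinForm K V} (hB : Sy B) {o o' : V} (h1 : B o o' = 1)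

include hB h1

theorem pr_mem (v : V) : v - B v o' • o - B o v • o' ∈ WW B o o' := by
  constructor
  · change B o (v - B v o' • o - B o v • o') = 0
    rw [map_sub, map_sub, map_smul, map_smul, hB.alt, h1, smul_zero, sub_zero, smul_eq_mul,
      mul_one, sub_self]
  · change B o' (v - B v o' • o - B o v • o') = 0
    rw [map_sub, map_sub, map_smul, map_smul, hB.alt, hB.neg o o', h1, hB.neg v o', smul_zero,
      sub_zero, smul_eq_mul]
    ring

/-- `V` is a hyperbolic extension. -/
def splitE : (K × WW B o o' × K) ≃ₗ[K] V where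
  toFun u := u.1 • o + (u.2.1 : V) + u.2.2 • o'
  map_add' := by
    intro u v
    simp only [Prod.fst_add, Prod.snd_add, Submodule.coe_add]
    module
  map_smul' := by
    intro c u
    simp only [Prod.smul_fst, Prod.smul_snd, Submodule.coe_smul, RingHom.id_apply, smul_eq_mul]
    module
  invFun v := (B v o', ⟨v - B v o' • o - B o v • o', pr_mem hB h1 v⟩, B o v)
  left_inv := by
    rintro ⟨a, ⟨x, hx⟩, b⟩
    obtain ⟨hx1, hx2⟩ := hx
    have e1 : B (a • o + x + b • o') o' = a := by
      rw [map_add, map_add, map_smul, map_smul, LinearMap.add_apply, LinearMap.add_apply,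
        LinearMap.smul_apply, LinearMap.smul_apply, h1, hB.alt, hB.neg o' x, hx2]
      simp
    have e2 : B o (a • o + x + b • o') = b := by
      rw [map_add, map_add, map_smul, map_smul, h1, hB.alt, hx1]
      simp
    refine Prod.ext e1 (Prod.ext (Subtype.ext ?_) e2)
    change a • o + x + b • o' - B (a • o + x + b • o') o' • o - B o (a • o + x + b • o') • o' = x
    rw [e1, e2]
    module
  right_inv := by
    intro v
    change B v o' • o + (v - B v o' • o - B o v • o') + B o v • o' = v
    module

theorem splitE_apply (u : K × WW B o o' × K) :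
    splitE hB h1 u = u.1 • o + (u.2.1 : V) + u.2.2 • o' := rfl

theorem splitE_iso (u v : K × WW B o o' × K) :
    B (splitE hB h1 u) (splitE hB h1 v) = hyp (BW B o o') u v := by
  obtain ⟨a, ⟨x, hx1, hx2⟩, b⟩ := u
  obtain ⟨a', ⟨x', hx1', hx2'⟩, b'⟩ := v
  rw [splitE_apply, splitE_apply, hyp_apply, BW_apply]
  simp only [map_add, map_smul, LinearMap.add_apply, LinearMap.smul_apply, smul_eq_mul]
  rw [hB.alt, hB.alt, h1, hB.neg o o', h1, hB.neg o x, hB.neg o' x, hx1, hx2, hx1', hx2']
  ring

theorem BW_sy : Sy (BW B o o') := by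
  refine ⟨fun x => hB.alt x, fun x hx => ?_⟩
  apply Subtype.ext
  apply hB.nd
  intro v
  obtain ⟨u, rfl⟩ := (splitE hB h1).surjective v
  obtain ⟨a, y, b⟩ := u
  have h2 := x.2.1
  have h3 := x.2.2
  rw [splitE_apply, map_add, map_add, map_smul, map_smul, hB.neg o x, hB.neg o' x, h2, h3]
  have h4 : B x y = 0 := hx y
  rw [h4]
  simp

end Split

/-- **Induction over the symplectic spaces.** -/
theorem sp_ind {K : Type} [Field K]
    (P : ∀ (V : Type) [AddCommGroup V] [Module K V], BilinForm K V → Prop)
    (h0 : ∀ (V : Type) [AddCommGroup V] [Module K V] (B : BilinForm K V), Subsingleton V → P V B)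
    (hs : ∀ (W : Type) [AddCommGroup W] [Module K W] [Module.Finite K W] (B : BilinForm K W),
      Sy B → P W B → P (K × W × K) (hyp B))
    (hi : ∀ (V V' : Type) [AddCommGroup V] [Module K V] [AddCommGroup V'] [Module K V']
      (B : BilinForm K V) (B' : BilinForm K V') (e : V ≃ₗ[K] V'),
      (∀ x y, B' (e x) (e y) = B x y) → P V B → P V' B')
    (V : Type) [AddCommGroup V] [Module K V] [Module.Finite K V] (B : BilinForm K V)
    (hB : Sy B) : P V B := by
  have key : ∀ (n : ℕ) (V : Type) [AddCommGroup V] [Module K V] [Module.Finite K V]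
      (B : BilinForm K V), Sy B → finrank K V ≤ n → P V B := by
    intro n
    induction n with
    | zero =>
      intro V _ _ _ B _ hd
      exact h0 V B (Module.finrank_zero_iff.mp (Nat.le_zero.mp hd))
    | succ n ih =>
      intro V _ _ _ B hB hd
      by_cases hV : Subsingleton V
      · exact h0 V B hV
      · obtain ⟨o, ho⟩ : ∃ o : V, o ≠ 0 := by
          by_contra hcon
          push Not at hcon
          exact hV ⟨fun x y => by rw [hcon x, hcon y]⟩
        obtain ⟨o', h1⟩ := hB.exists_one ho
        have h2 : finrank K (WW B o o') ≤ n := by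
          have h3 := (splitE hB h1).finrank_eq
          rw [Module.finrank_prod, Module.finrank_prod, Module.finrank_self] at h3
          omega
        exact hi _ V (hyp (BW B o o')) B (splitE hB h1) (splitE_iso hB h1)
          (hs _ _ (BW_sy hB h1) (ih _ _ (BW_sy hB h1) h2))
  exact key _ V B hB le_rfl

end Vale.Agent.P180.R2.H589.Sp
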