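import Vale.Agent.P180.R2.H589.Sp.Stb
import Vale.Agent.P180.R2.H589.Sch.Pair
import Mathlib.GroupTheory.IsPerfect
import Mathlib.LinearAlgebra.Determinant

/-!
P180: symplectic groups are generated by the transvections and perfect.
-/

set_option linter.all false

namespace Vale.Agent.P180.R2.H589.Sp

open Subgroup Module
open LinearMap (BilinForm)
open Vale.Agent.P180.R2.H589.Sch
open scoped commutatorElement

section Cj

variable {K V V' : Type*} [Field K] [AddCommGroup V] [Module K V] [AddCommGroup V'] [Module K V']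

/-- transport along an isomorphism -/
def cj (e : V ≃ₗ[K] V') : (V ≃ₗ[K] V) ≃* (V' ≃ₗ[K] V') where
  toFun g := (e.symm.trans g).trans e
  invFun g := (e.trans g).trans e.symm
  left_inv := by
    intro g
    apply LinearEquiv.ext
    intro x
    change e.symm (e (g (e.symm (e x)))) = g x
    rw [e.symm_apply_apply, e.symm_apply_apply]
  right_inv := by
    intro g
    apply LinearEquiv.ext
    intro x
    change e (e.symm (g (e (e.symm x)))) = g x
    rw [e.apply_symm_apply, e.apply_symm_apply]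
  map_mul' := by
    intro g h
    apply LinearEquiv.ext
    intro x
    change e (g (h (e.symm x))) = e (g (e.symm (e (h (e.symm x)))))
    rw [e.symm_apply_apply]

theorem cj_apply (e : V ≃ₗ[K] V') (g : V ≃ₗ[K] V) (x : V') : cj e g x = e (g (e.symm x)) := rfl

theorem cj_symm_apply (e : V ≃ₗ[K] V') (g : V' ≃ₗ[K] V') (x : V) :
    (cj e).symm g x = e.symm (g (e x)) := rfl

variable {B : BilinForm K V} {B' : BilinForm K V'} {e : V ≃ₗ[K] V'}
  (he : ∀ x y, B' (e x) (e y) = B x y)

include he

theorem cj_mem {g : V ≃ₗ[K] V} : cj e g ∈ SpG B' ↔ g ∈ SpG B := by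
  constructor
  · intro h x y
    have h1 := h (e x) (e y)
    rw [cj_apply, cj_apply, e.symm_apply_apply, e.symm_apply_apply, he, he] at h1
    exact h1
  · intro h x y
    rw [cj_apply, cj_apply, he, h]
    rw [← he, e.apply_symm_apply, e.apply_symm_apply]

theorem cj_tS (hB : Sy B) (hB' : Sy B') (a : V) (c : K) :
    cj e (tS hB a c) = tS hB' (e a) c := by
  apply LinearEquiv.ext
  intro x
  obtain ⟨x, rfl⟩ := e.surjective x
  rw [cj_apply, tS_apply, tS_apply, e.symm_apply_apply, map_add, map_smul, he]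

theorem sy_of_iso (hB : Sy B) : Sy B' := by
  refine ⟨fun x => ?_, fun x hx => ?_⟩
  · obtain ⟨x, rfl⟩ := e.surjective x
    rw [he, hB.alt]
  · obtain ⟨x, rfl⟩ := e.surjective x
    have h1 : x = 0 := hB.nd x fun y => by rw [← he]; exact hx _
    rw [h1, map_zero]

theorem sy_of_iso' (hB' : Sy B') : Sy B := by
  refine ⟨fun x => ?_, fun x hx => ?_⟩
  · rw [← he, hB'.alt]
  · apply e.injective
    rw [map_zero]
    apply hB'.nd
    intro y
    obtain ⟨y, rfl⟩ := e.surjective y
    rw [he]
    exact hx y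

end Cj

section Lv

variable {K W : Type*} [Field K] [AddCommGroup W] [Module K W] {B : BilinForm K W} (hB : Sy B)

include hB

theorem qq_mem_TG (y : W) (c : K) : qq B y c ∈ TG (hyp_sy hB) := by
  have h1 : qq B (-y) 0 = tS (hyp_sy hB) ((1 : K), y, (0 : K)) 1 *
      tS (hyp_sy hB) ((1 : K), (0 : W), (0 : K)) (-1) *
      tS (hyp_sy hB) ((0 : K), y, (0 : K)) (-1) := by
    apply LinearEquiv.ext
    intro u
    rw [LinearEquiv.mul_apply, LinearEquiv.mul_apply, qq_apply, tS_apply, tS_apply, tS_apply]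
    simp only [hyp_apply, Prod.fst_add, Prod.snd_add, Prod.smul_fst, Prod.smul_snd, smul_eq_mul,
      map_add, map_smul, map_zero, map_neg, LinearMap.add_apply, LinearMap.smul_apply,
      LinearMap.zero_apply, hB.alt]
    refine Prod.ext ?_ (Prod.ext ?_ ?_)
    · simp only [Prod.fst_add, Prod.smul_fst, smul_eq_mul]
      ring
    · simp only [Prod.fst_add, Prod.snd_add, Prod.smul_fst, Prod.smul_snd]
      module
    · simp only [Prod.snd_add, Prod.smul_snd, smul_eq_mul]
      ring
  have h2 : qq B y c = (qq B (-y) 0)⁻¹ * qq B 0 c := by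
    rw [qq_inv hB, neg_neg, neg_zero, qq_mul]
    congr 1
    · rw [add_zero]
    · rw [map_zero, LinearMap.zero_apply, zero_add, sub_zero]
  rw [h2, h1, qq_tS hB]
  exact Subgroup.mul_mem _ (Subgroup.inv_mem _ (Subgroup.mul_mem _ (Subgroup.mul_mem _
    (tS_mem_TG _ _ _) (tS_mem_TG _ _ _)) (tS_mem_TG _ _ _))) (tS_mem_TG _ _ _)

theorem lv_mem_TG {m : W ≃ₗ[K] W} (hm : m ∈ TG hB) : lv m 1 ∈ TG (hyp_sy hB) := by
  unfold TG at hm
  induction hm using closure_induction with
  | mem m hm =>
    obtain ⟨a, c, rfl⟩ := hm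
    rw [lv_tS hB]
    exact tS_mem_TG _ _ _
  | one => rw [lv_one]; exact Subgroup.one_mem _
  | mul m m' _ _ h h' =>
    have := Subgroup.mul_mem _ h h'
    rwa [lv_mul, one_mul] at this
  | inv m _ h =>
    have := Subgroup.inv_mem _ h
    rwa [lv_inv, inv_one] at this

end Lv

section Main

variable {K : Type} [Field K] [Finite K]

/-- **Symplectic groups are generated by the transvections.** -/
theorem SpG_eq_TG (hK : 2 < Nat.card K) {V : Type} [AddCommGroup V] [Module K V]
    [Module.Finite K V] {B : BilinForm K V} (hB : Sy B) : SpG B = TG hB := by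
  refine le_antisymm ?_ (TG_le hB)
  refine sp_ind (K := K) (fun V _ _ B => ∀ hB : Sy B, SpG B ≤ TG hB) ?_ ?_ ?_ V B hB hB
  · intro V _ _ B hV hB g _
    have h1 : g = 1 := LinearEquiv.ext fun x => Subsingleton.elim _ _
    rw [h1]
    exact Subgroup.one_mem _
  · intro W _ _ _ B hB ih hB' g hg
    have hg0 : g (oo K W) ≠ 0 := fun h => oo_ne (g.map_eq_zero_iff.mp h)
    obtain ⟨t, ht, htg⟩ := TG_trans hB' hK hg0 (oo_ne (K := K) (W := W))
    have h1 : t * g ∈ StS B := by
      refine ⟨Subgroup.mul_mem _ (TG_le hB' ht) hg, 1, ?_⟩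
      rw [LinearEquiv.mul_apply, htg, one_smul]
    have h2 : lam B ⟨t * g, h1⟩ = 1 := by
      apply Units.ext
      rw [lam_val]
      change ((t * g) (oo K W)).1 = 1
      rw [LinearEquiv.mul_apply, htg]
      rfl
    obtain ⟨y, c, h3⟩ := exists_decomp hB ⟨t * g, h1⟩
    rw [h2] at h3
    have h4 : t * g ∈ TG hB' := by
      change t * g = _ at h3
      rw [h3]
      exact Subgroup.mul_mem _ (lv_mem_TG hB (ih hB (bl B ⟨t * g, h1⟩).2)) (qq_mem_TG hB y c)
    have h5 := Subgroup.mul_mem _ (Subgroup.inv_mem _ ht) h4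
    rwa [inv_mul_cancel_left] at h5
  · intro V V' _ _ _ _ B B' e he ih hB' g hg
    have hB := sy_of_iso' he hB'
    have h1 : (cj e).symm g ∈ SpG B := by
      rw [← cj_mem he, MulEquiv.apply_symm_apply]
      exact hg
    have h2 := ih hB h1
    have h3 : TG hB ≤ (TG hB').comap (cj e).toMonoidHom := by
      rw [TG, closure_le]
      rintro _ ⟨a, c, rfl⟩
      change cj e (tS hB a c) ∈ TG hB'
      rw [cj_tS he hB hB']
      exact tS_mem_TG _ _ _
    have h4 := h3 h2
    change cj e ((cj e).symm g) ∈ TG hB' at h4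
    rwa [MulEquiv.apply_symm_apply] at h4

theorem exists_mu2 (hK : 3 < Nat.card K) : ∃ a : K, a ≠ 0 ∧ a ^ 2 ≠ 1 := by
  obtain ⟨x, hx⟩ : IsCyclic Kˣ := by infer_instance
  have h1 : orderOf x = Nat.card Kˣ := orderOf_eq_card_of_forall_mem_zpowers hx
  have h2 : Nat.card K = Nat.card Kˣ + 1 := Nat.card_eq_card_units_add_one K
  refine ⟨x, x.ne_zero, fun h => ?_⟩
  have h4 : x ^ 2 = 1 := Units.ext (by rw [Units.val_pow_eq_pow_val, h, Units.val_one])
  have h5 := orderOf_le_of_pow_eq_one (by norm_num) h4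
  omega

/-- **Symplectic groups are perfect.** -/
theorem SpG_perfect (hK : 3 < Nat.card K) {V : Type} [AddCommGroup V] [Module K V]
    [Module.Finite K V] {B : BilinForm K V} (hB : Sy B) : ⁅SpG B, SpG B⁆ = SpG B := by
  refine le_antisymm ?_ ?_
  · rw [commutator_le]
    intro g hg h hh
    rw [commutatorElement_def]
    exact mul_mem (mul_mem (mul_mem hg hh) (inv_mem hg)) (inv_mem hh)
  nth_rewrite 1 [SpG_eq_TG (by omega) hB]
  rw [TG, closure_le]
  rintro _ ⟨a, c, rfl⟩
  by_cases ha : a = 0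
  · have : tS hB a c = 1 := by
      apply LinearEquiv.ext
      intro x
      rw [tS_apply, ha, smul_zero, add_zero]
      rfl
    rw [this]
    exact Subgroup.one_mem _
  obtain ⟨μ, h0, h2⟩ := exists_mu2 hK
  obtain ⟨g, hg, hga⟩ := TG_trans hB (by omega) ha (smul_ne_zero h0 ha : μ • a ≠ 0)
  have h3 : μ ^ 2 - 1 ≠ 0 := sub_ne_zero.mpr h2
  have h4 : tS hB a c = ⁅g, tS hB a ((μ ^ 2 - 1)⁻¹ * c)⁆ := by
    rw [commutatorElement_def, tS_conj hB (TG_le hB hg), hga, tS_smul, tS_inv, tS_add]
    congr 1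
    field_simp
    ring
  rw [h4]
  exact commutator_mem_commutator (TG_le hB hg) (tS_mem hB _ _)

theorem SpG_perfect' (hK : 3 < Nat.card K) {V : Type} [AddCommGroup V] [Module K V]
    [Module.Finite K V] {B : BilinForm K V} (hB : Sy B) : commutator (SpG B) = ⊤ := by
  apply map_injective (SpG B).subtype_injective
  rw [map_subtype_commutator, SpG_perfect hK hB, ← MonoidHom.range_eq_map, range_subtype]

end Main

end Vale.Agent.P180.R2.H589.Sp
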